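import Crest.Agent.X261.Fam79.Liou
import Crest.Agent.X261.Fam.St

/-!
# Row 261, package FAM (helper79), file `Lio`: `lio : LioStmt`
-/

set_option autoImplicit false

open Set Filter Topology MeasureTheory Complex
open scoped ContDiff NNReal

noncomputable section

namespace Crest.Agent.X261.Fam79

open Crest.Agent.R275.Geo Crest.Agent.R275.EDR890 Crest.Agent.R273.Hess_333
open Crest.Agent.R273.Defs_333 Crest.Agent.R273.Fock_243 Crest.Agent.X261.Fam

variable {q : ℕ} {φ : Cn q → ℝ}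

theorem quad {U N Λ : ℝ} (hU : 0 ≤ U) (hN : 0 ≤ N)
    (h : ∀ t : ℝ, 0 < t → N / 2 ≤ t / 2 * U + 1 / (4 * t) * (Λ / 4)) : 2 * N ^ 2 ≤ U * Λ := by
  have h1 : ∀ t : ℝ, 0 < t → 0 ≤ U * (t * t) + -N * t + Λ / 8 := fun t ht => by
    have h2 := mul_le_mul_of_nonneg_left (h t ht) ht.le
    have h3 : t * (t / 2 * U + 1 / (4 * t) * (Λ / 4)) = t * t / 2 * U + Λ / 16 := by
      field_simp; ring
    rw [h3] at h2
    nlinarith
  have h2 : 0 ≤ Λ / 8 := by
    have h3 : Tendsto (fun t : ℝ => U * (t * t) + -N * t + Λ / 8) (𝓝[>] 0) (𝓝 (Λ / 8)) := by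
      have h4 : Continuous fun t : ℝ => U * (t * t) + -N * t + Λ / 8 := by fun_prop
      simpa using (h4.tendsto 0).mono_left nhdsWithin_le_nhds
    exact ge_of_tendsto h3 (eventually_nhdsWithin_of_forall h1)
  have h3 := discrim_le_zero (a := U) (b := -N) (c := Λ / 8) fun t => by
    rcases lt_or_ge 0 t with ht | ht
    · exact h1 t ht
    · nlinarith [mul_nonneg hU (mul_self_nonneg t), mul_nonneg hN (neg_nonneg.2 ht)]
  unfold discrim at h3
  nlinarith

theorem lev_clm (hφ : ContDiff ℝ ∞ φ) (T : Cn q →L[ℂ] Cn q) (z w : Cn q) :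
    lev (fun x => φ (T x)) z w = lev φ (T z) (T w) := by
  have h := (T.restrictScalars ℝ).iteratedFDeriv_comp_right (contDiff_infty.1 hφ 2) z (i := 2) le_rfl
  have e : (fun x => φ (T x)) = φ ∘ T.restrictScalars ℝ := rfl
  have h2 : ∀ y : Cn q, (fun i => T.restrictScalars ℝ (![y, y] i)) = ![T y, T y] := fun y => by
    funext i; fin_cases i <;> rfl
  simp only [lev, e, h, ContinuousMultilinearMap.compContinuousLinearMap_apply, h2, map_smul]
  rfl

theorem lev_rsmul (φ : Cn q → ℝ) (z w : Cn q) (s : ℝ) :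
    lev φ z ((s : ℂ) • w) = s ^ 2 * lev φ z w := by
  have e : ∀ y : Cn q, (s : ℂ) • y = s • y := fun y => algebraMap_smul ℂ s y
  simp only [lev, iteratedFDeriv_two_apply, Matrix.cons_val_zero, Matrix.cons_val_one,
    smul_comm I s w, e, map_smul, smul_apply, smul_eq_mul]
  ring

theorem trace_hess (hφ : ContDiff ℝ ∞ φ) (z : Cn q) :
    (hess φ z).trace.re = ∑ j, lev φ z (EuclideanSpace.single j 1) / 4 := by
  rw [Matrix.trace, Complex.re_sum]
  refine Finset.sum_congr rfl fun j _ => ?_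
  rw [← Crest.Agent.R273.HessB_333.hq_re hφ.contDiffAt]
  simp [hq]

theorem wd_cu (hφ : ContDiff ℝ ∞ φ) (z : Cn q) (k : Fin q) :
    wd (true, k) (cu φ) z = (1 / 2 : ℂ) * ((fderiv ℝ φ z (EuclideanSpace.single k 1) : ℝ) +
      (fderiv ℝ φ z (I • EuclideanSpace.single k 1) : ℝ) * I) := by
  have h := (ofRealCLM.hasFDerivAt.comp z (hφ.differentiable (by simp) z).hasFDerivAt).fderiv
  have hI : (EuclideanSpace.single k I : Cn q) = I • EuclideanSpace.single k (1 : ℂ) := by
    ext b; simp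
  rw [wd, show cu φ = ofRealCLM ∘ φ from rfl, h, wdL, hI]
  simp [cI, mul_comm]

theorem int_lev' (ν : Measure (Cn q)) [IsFiniteMeasureOnCompacts ν] (hφ : ContDiff ℝ ∞ φ)
    (hc : HasCompactSupport φ) (w : Cn q) : Integrable (fun z => lev φ z w) ν := by
  have hg : ContDiff ℝ 2 φ := contDiff_infty.1 hφ 2
  have hi : ∀ w : Cn q, Integrable (fun t => fderiv ℝ (fderiv ℝ φ) t w w) ν := fun w =>
    ((((hg.fderiv_right (m := 1) (by norm_num)).continuous_fderiv one_ne_zero).clm_apply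
      continuous_const).clm_apply continuous_const).integrable_of_hasCompactSupport
      (((hc.fderiv ℝ).fderiv ℝ).comp_left (g := fun L : Cn q →L[ℝ] Cn q →L[ℝ] ℝ => L w w) (by simp))
  simp only [lev, iteratedFDeriv_two_apply, Matrix.cons_val_zero, Matrix.cons_val_one]
  exact (hi w).add (hi _)

theorem mL_mul (L P : Mt q) (x : Cn q) : mL (L * P) x = mL L (mL P x) := by
  simp [mL, map_mul]

theorem mL_one (x : Cn q) : mL (1 : Mt q) x = x := by simp [mL]

/-- **LIO** -/
theorem lio : LioStmt := by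
  intro q ν _ h
  refine liou ν fun φ hφ hc h0 v => ?_
  rcases eq_or_ne v 0 with rfl | hv
  · simp [lev, iteratedFDeriv_two_apply]
  obtain ⟨k, hk⟩ : ∃ k, v k ≠ 0 := by
    by_contra h1
    exact hv (by ext k; exact not_not.1 fun h2 => h1 ⟨k, h2⟩)
  set A := ∫ z, fderiv ℝ φ z v ∂ν
  set B := ∫ z, fderiv ℝ φ z (I • v) ∂ν
  have hd : ∀ w, Integrable (fun z => fderiv ℝ φ z w) ν := fun w =>
    ((hφ.continuous_fderiv (by simp)).clm_apply continuous_const).integrable_of_hasCompactSupport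
      (hc.fderiv_apply ℝ w)
  set R := ∑ j ∈ Finset.univ.erase k, (∫ z, lev φ z (EuclideanSpace.single j 1) ∂ν) / 4
  have key : ∀ t : ℝ, 0 < t → ∀ s : ℝ, 0 < s → ‖(A : ℂ) + B * I‖ / 2 ≤
      t / 2 * ∫ z, φ z ∂ν + 1 / (4 * t) * ((∫ z, lev φ z v ∂ν) / 4 + s ^ 2 * R) := by
    intro t ht s hs
    set P : Mt q := ((s : ℂ) • (1 : Mt q)).updateCol k fun a => v a with hP
    have hdet : P.det ≠ 0 := by
      rw [hP, ← Matrix.cramer_apply, Matrix.cramer_smul, Matrix.cramer_one]
      simpa using ⟨fun h1 => absurd h1 hs.ne', hk⟩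
    have hu : IsUnit P.det := hdet.isUnit
    have h1 : ∀ x, mL P (mL P⁻¹ x) = x := fun x => by
      rw [← mL_mul, Matrix.mul_nonsing_inv _ hu, mL_one]
    have h2 : ∀ x, mL P⁻¹ (mL P x) = x := fun x => by
      rw [← mL_mul, Matrix.nonsing_inv_mul _ hu, mL_one]
    have hPk : mL P (EuclideanSpace.single k 1) = v := by
      ext a; simp [mL_apply, hP]
    have hPj : ∀ j ∈ Finset.univ.erase k,
        mL P (EuclideanSpace.single j 1) = (s : ℂ) • EuclideanSpace.single j 1 := fun j hj => by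
      ext a
      simp [mL_apply, hP, Matrix.updateCol_ne (Finset.ne_of_mem_erase hj), Matrix.one_apply]
    have hs' : ContDiff ℝ ∞ fun x => φ (mL P x) := hφ.comp ((mL P).restrictScalars ℝ).contDiff
    have hc' : HasCompactSupport fun x => φ (mL P x) :=
      hc.comp_homeomorph (⟨⟨mL P, mL P⁻¹, h2, h1⟩, (mL P).continuous, (mL P⁻¹).continuous⟩ :
        Cn q ≃ₜ Cn q)
    have hf : ∀ x w, fderiv ℝ (fun x => φ (mL P x)) (mL P⁻¹ x) w = fderiv ℝ φ x (mL P w) := by
      intro x w
      have := (hφ.differentiable (by simp) (mL P (mL P⁻¹ x))).hasFDerivAt.comp (mL P⁻¹ x)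
        ((mL P).restrictScalars ℝ).hasFDerivAt
      rw [show (fun x => φ (mL P x)) = φ ∘ mL P from rfl, this.fderiv, h1]
      rfl
    have h3 := h P⁻¹ (Matrix.isUnit_nonsing_inv_det P hu).ne_zero _ hs' hc' (fun _ => h0 _) k t ht
    simp only [wd_cu hs', trace_hess hs', lev_clm hφ, hf, h1, map_smul, hPk] at h3
    have hd' : ∀ w, Integrable (fun z => ((fderiv ℝ φ z w : ℝ) : ℂ)) ν := fun w => (hd w).ofReal
    rw [integral_const_mul, integral_add (hd' v) ((hd' _).mul_const I),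
      integral_mul_const, integral_complex_ofReal, integral_complex_ofReal, norm_mul,
      integral_finsetSum _ fun j _ => (int_lev' ν hφ hc _).div_const 4,
      ← Finset.add_sum_erase _ _ (Finset.mem_univ k), hPk, integral_div] at h3
    have h4 : ∑ j ∈ Finset.univ.erase k, ∫ z, lev φ z (mL P (EuclideanSpace.single j 1)) / 4 ∂ν =
        s ^ 2 * R := by
      rw [Finset.mul_sum]
      refine Finset.sum_congr rfl fun j hj => ?_
      simp only [hPj j hj, lev_rsmul, integral_div, integral_const_mul, mul_div_assoc]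
    rw [h4] at h3
    refine le_trans (le_of_eq ?_) h3
    simp only [one_div, norm_inv, Complex.norm_ofNat]
    rw [div_eq_inv_mul]
  have h5 := quad (N := ‖(A : ℂ) + B * I‖) (Λ := ∫ z, lev φ z v ∂ν) (integral_nonneg h0)
    (norm_nonneg _) fun t ht => by
    have h6 : Continuous fun s : ℝ =>
        t / 2 * ∫ z, φ z ∂ν + 1 / (4 * t) * ((∫ z, lev φ z v ∂ν) / 4 + s ^ 2 * R) := by fun_prop
    have h7 := (h6.tendsto 0).mono_left (nhdsWithin_le_nhds (s := Ioi 0))
    simp only [ne_eq, OfNat.ofNat_ne_zero, not_false_eq_true, zero_pow, zero_mul, add_zero] at h7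
    exact ge_of_tendsto h7 (eventually_nhdsWithin_of_forall (key t ht))
  rwa [Complex.sq_norm, Complex.normSq_add_mul_I] at h5

end Crest.Agent.X261.Fam79
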