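import Mathlib

/-!
# Row 261, package FAM (helper79), file `Min`: abstract minimisation and the limit measure

* `BF T b`, `Af T V A`, `mn`, `ex` : symmetric bilinear forms, affine sets, infimum, excess;
* `par`, `el`, `near` : parallelogram law, Euler-Lagrange inequality, approximating forms;
* `QF T B`, `Loc`     : forms with a weight, localisation;
* `exists_glob`       : global minimising sequence and the limit measure.
-/

set_option autoImplicit false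
set_option linter.unusedSectionVars false

open Set Filter Topology MeasureTheory
open scoped ContDiff CompactlySupported

noncomputable section

namespace Crest.Agent.X261.Fam79

variable {W : Type*} [AddCommGroup W] [Module ℝ W] {T V : Submodule ℝ W} {A : Set W}
  {b : W → W → ℝ} {f g h u : W}

/-- symmetric bilinear form on `T` -/
structure BF (T : Submodule ℝ W) (b : W → W → ℝ) : Prop where
  symm : ∀ f ∈ T, ∀ g ∈ T, b f g = b g f
  add : ∀ f ∈ T, ∀ g ∈ T, ∀ h ∈ T, b (f + g) h = b f h + b g h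
  smul : ∀ c : ℝ, ∀ f ∈ T, ∀ h ∈ T, b (c • f) h = c * b f h

/-- positive symmetric bilinear form on `T` -/
structure PF (T : Submodule ℝ W) (b : W → W → ℝ) : Prop extends BF T b where
  pos : ∀ f ∈ T, 0 ≤ b f f

/-- affine subset of `T` with direction `V` -/
structure Af (T V : Submodule ℝ W) (A : Set W) : Prop where
  le : V ≤ T
  sub : ∀ f ∈ A, f ∈ T
  ne : A.Nonempty
  diff : ∀ f ∈ A, ∀ g ∈ A, f - g ∈ V
  add : ∀ f ∈ A, ∀ u ∈ V, f + u ∈ A

/-- the infimum -/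
def mn (b : W → W → ℝ) (A : Set W) : ℝ := sInf ((fun f => b f f) '' A)

/-- the excess -/
def ex (b : W → W → ℝ) (A : Set W) (f : W) : ℝ := b f f - mn b A

theorem BF.sq (H : BF T b) (hf : f ∈ T) (hg : g ∈ T) (s t : ℝ) :
    b (s • f + t • g) (s • f + t • g) = s ^ 2 * b f f + 2 * s * t * b g f + t ^ 2 * b g g := by
  have h1 := T.smul_mem s hf
  have h2 := T.smul_mem t hg
  have h3 := T.add_mem h1 h2
  rw [H.add _ h1 _ h2 _ h3, H.smul _ _ hf _ h3, H.smul _ _ hg _ h3, H.symm _ hf _ h3,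
    H.symm _ hg _ h3, H.add _ h1 _ h2 _ hf, H.add _ h1 _ h2 _ hg, H.smul _ _ hf _ hf,
    H.smul _ _ hg _ hf, H.smul _ _ hf _ hg, H.smul _ _ hg _ hg, H.symm _ hf _ hg]
  ring

theorem BF.sq_add (H : BF T b) (hf : f ∈ T) (hg : g ∈ T) (t : ℝ) :
    b (f + t • g) (f + t • g) = b f f + 2 * t * b g f + t ^ 2 * b g g := by
  simpa using H.sq hf hg 1 t

theorem BF.sq_add' (H : BF T b) (hf : f ∈ T) (hg : g ∈ T) :
    b (f + g) (f + g) = b f f + 2 * b g f + b g g := by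
  simpa using H.sq hf hg 1 1

theorem BF.sq_sub (H : BF T b) (hf : f ∈ T) (hg : g ∈ T) :
    b (f - g) (f - g) = b f f - 2 * b g f + b g g := by
  have := H.sq hf hg 1 (-1)
  simp only [one_smul, neg_smul, ← sub_eq_add_neg] at this
  rw [this]; ring

theorem BF.sub (H : BF T b) (hf : f ∈ T) (hg : g ∈ T) (hh : h ∈ T) :
    b (f - g) h = b f h - b g h := by
  have := H.add _ (T.sub_mem hf hg) _ hg _ hh
  rw [sub_add_cancel] at this
  linarith

theorem BF.diff (H : BF T b) (hf : f ∈ T) (hg : g ∈ T) :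
    b f f - b g g = b (f - g) (f + g) := by
  rw [H.sub hf hg (T.add_mem hf hg), H.symm _ hf _ (T.add_mem hf hg),
    H.symm _ hg _ (T.add_mem hf hg), H.add _ hf _ hg _ hf, H.add _ hf _ hg _ hg, H.symm _ hf _ hg]
  ring

theorem abs_le_sqrt {x y z : ℝ} (hy : 0 ≤ y) (h : ∀ t : ℝ, 0 ≤ y + 2 * t * x + t ^ 2 * z) :
    |x| ≤ √y * √z := by
  have h1 := discrim_le_zero (a := z) (b := 2 * x) (c := y) fun t => by nlinarith [h t]
  unfold discrim at h1
  rw [← Real.sqrt_mul hy]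
  exact Real.abs_le_sqrt (by nlinarith)

/-- Cauchy-Schwarz -/
theorem PF.cs (H : PF T b) (hf : f ∈ T) (hg : g ∈ T) : |b g f| ≤ √(b f f) * √(b g g) :=
  abs_le_sqrt (H.pos f hf) fun t => by
    rw [← H.sq_add hf hg]; exact H.pos _ (T.add_mem hf (T.smul_mem t hg))

theorem mn_le (H : PF T b) (a : Af T V A) (hf : f ∈ A) : mn b A ≤ b f f :=
  csInf_le ⟨0, by rintro _ ⟨g, hg, rfl⟩; exact H.pos g (a.sub g hg)⟩ ⟨f, hf, rfl⟩

theorem mn_nonneg (H : PF T b) (a : Af T V A) : 0 ≤ mn b A :=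
  le_csInf (a.ne.image _) (by rintro _ ⟨g, hg, rfl⟩; exact H.pos g (a.sub g hg))

theorem ex_nonneg (H : PF T b) (a : Af T V A) (hf : f ∈ A) : 0 ≤ ex b A f :=
  sub_nonneg.2 (mn_le H a hf)

theorem exists_ex (b : W → W → ℝ) (a : Af T V A) {η : ℝ} (hη : 0 < η) : ∃ f ∈ A, ex b A f ≤ η := by
  obtain ⟨_, ⟨f, hf, rfl⟩, h1⟩ := exists_lt_of_csInf_lt (a.ne.image fun f => b f f)
    (lt_add_of_pos_right _ hη)
  exact ⟨f, hf, by unfold ex mn; linarith⟩

/-- a minimising sequence -/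
theorem exists_seq (H : PF T b) (a : Af T V A) :
    ∃ F : ℕ → W, (∀ i, F i ∈ A) ∧ Tendsto (fun i => ex b A (F i)) atTop (𝓝 0) := by
  choose F h1 h2 using fun i : ℕ => exists_ex b a (Nat.one_div_pos_of_nat (n := i))
  exact ⟨F, h1, squeeze_zero (fun i => ex_nonneg H a (h1 i)) h2
    tendsto_one_div_add_atTop_nhds_zero_nat⟩

/-- parallelogram law -/
theorem par (H : PF T b) (a : Af T V A) (hf : f ∈ A) (hg : g ∈ A) :
    b (f - g) (f - g) ≤ 2 * ex b A f + 2 * ex b A g := by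
  have h1 := mn_le H a (a.add g hg _ (V.smul_mem (1 / 2 : ℝ) (a.diff f hf g hg)))
  rw [show g + (1 / 2 : ℝ) • (f - g) = (1 / 2 : ℝ) • f + (1 / 2 : ℝ) • g by module,
    H.sq (a.sub f hf) (a.sub g hg)] at h1
  rw [H.sq_sub (a.sub f hf) (a.sub g hg)]
  unfold ex
  linarith

/-- Euler-Lagrange inequality -/
theorem el (H : PF T b) (a : Af T V A) (hf : f ∈ A) (hu : u ∈ V) :
    |b u f| ≤ √(ex b A f) * √(b u u) :=
  abs_le_sqrt (ex_nonneg H a hf) fun t => by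
    have h1 := mn_le H a (a.add f hf _ (V.smul_mem t hu))
    rw [H.sq_add (a.sub f hf) (a.le hu)] at h1
    unfold ex
    linarith

/-- approximating forms -/
theorem near (H : PF T b) (a : Af T V A) {κ : Type*} {l : Filter κ} {be : κ → W → W → ℝ} {c : ℝ}
    (hc : 0 < c) (hle : ∀ᶠ ε in l, ∀ f ∈ A, c * b f f ≤ be ε f f)
    (ht : ∀ f ∈ A, Tendsto (fun ε => be ε f f) l (𝓝 (c * b f f))) {η : ℝ} (hη : 0 < η) :
    ∃ δ, 0 < δ ∧ ∀ᶠ ε in l, ∀ F ∈ A, ex (be ε) A F ≤ δ →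
      be ε F F - c * b F F ≤ η ∧ ex b A F ≤ η ∧ be ε F F ≤ c * mn b A + η := by
  set δ := min η (c * η) / 3 with hδ
  have hδ0 : 0 < δ := by positivity
  have h1 : 3 * δ ≤ η := by rw [hδ]; linarith [min_le_left η (c * η)]
  have h2 : 3 * δ ≤ c * η := by rw [hδ]; linarith [min_le_right η (c * η)]
  obtain ⟨f, hf, h3⟩ := exists_ex b a (div_pos hδ0 hc)
  have h4 : c * b f f ≤ c * mn b A + δ := by
    rw [le_div_iff₀ hc] at h3
    unfold ex at h3
    linarith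
  refine ⟨δ, hδ0, ?_⟩
  filter_upwards [hle, (ht f hf).eventually (gt_mem_nhds (lt_add_of_pos_right _ hδ0))]
    with ε h5 h6 F hF h7
  have h8 : mn (be ε) A ≤ be ε f f := csInf_le ⟨0, by
    rintro _ ⟨g, hg, rfl⟩
    exact (mul_nonneg hc.le (H.pos g (a.sub g hg))).trans (h5 g hg)⟩ ⟨f, hf, rfl⟩
  have h9 := mul_le_mul_of_nonneg_left (mn_le H a hF) hc.le
  have h10 := h5 F hF
  unfold ex at h7 ⊢
  refine ⟨by linarith, le_of_mul_le_mul_left ?_ hc, by linarith⟩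
  rw [mul_sub]
  linarith

section weight

variable {Y : Type*} [NormedAddCommGroup Y] [NormedSpace ℝ Y] [FiniteDimensional ℝ Y]
  {B : (Y → ℝ) → W → W → ℝ} {w w' χ χ' : Y → ℝ}

/-- continuous with compact support -/
def Cc (w : Y → ℝ) : Prop := Continuous w ∧ HasCompactSupport w

theorem Cc.add (h : Cc w) (h' : Cc w') : Cc fun y => w y + w' y := ⟨h.1.add h'.1, h.2.add h'.2⟩

theorem Cc.mul (h : Cc w) (h' : Continuous w') : Cc fun y => w y * w' y :=
  ⟨h.1.mul h', h.2.mul_right⟩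

theorem Cc.smul (h : Cc w) (c : ℝ) : Cc fun y => c * w y :=
  ⟨continuous_const.mul h.1, HasCompactSupport.mul_left (f := fun _ => c) h.2⟩

/-- cut-off functions -/
structure Cu (χ : Y → ℝ) : Prop where
  sm : ContDiff ℝ ∞ χ
  cpt : HasCompactSupport χ
  nn : ∀ y, 0 ≤ χ y
  le : ∀ y, χ y ≤ 1

theorem Cu.cc (h : Cu χ) : Cc χ := ⟨h.sm.continuous, h.cpt⟩

/-- forms with a weight -/
structure QF (T : Submodule ℝ W) (B : (Y → ℝ) → W → W → ℝ) : Prop where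
  bf : ∀ w, Cc w → BF T (B w)
  wadd : ∀ w w', Cc w → Cc w' → ∀ f ∈ T, ∀ g ∈ T,
    B (fun y => w y + w' y) f g = B w f g + B w' f g
  wsmul : ∀ w, Cc w → ∀ c : ℝ, ∀ f ∈ T, ∀ g ∈ T, B (fun y => c * w y) f g = c * B w f g
  pos : ∀ w, Cc w → (∀ y, 0 ≤ w y) → ∀ f ∈ T, 0 ≤ B w f f

/-- localisation -/
def Loc (T V : Submodule ℝ W) (B : (Y → ℝ) → W → W → ℝ) : Prop :=
  ∀ χ, Cu χ → ∀ u ∈ V, ∃ u' ∈ V, ∀ w, Cc w → ∀ g ∈ T, B w u' g = B (fun y => w y * χ y) u g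

theorem QF.pf (H : QF T B) (hw : Cc w) (h0 : ∀ y, 0 ≤ w y) : PF T (B w) :=
  ⟨H.bf w hw, H.pos w hw h0⟩

theorem QF.mono (H : QF T B) (hw : Cc w) (hw' : Cc w') (h : ∀ y, w y ≤ w' y) (hf : f ∈ T) :
    B w f f ≤ B w' f f := by
  have h1 := H.pos _ (hw'.add (hw.smul (-1))) (fun y => by linarith [h y]) f hf
  rw [H.wadd _ _ hw' (hw.smul _) f hf f hf, H.wsmul _ hw _ f hf f hf] at h1
  linarith

theorem QF.abs_bd (H : QF T B) (hw : Cc w) (hχ : Cc χ) {C : ℝ} (hC : 0 ≤ C)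
    (h : ∀ y, |w y| ≤ C * χ y) (hf : f ∈ T) (hg : g ∈ T) :
    |B w g f| ≤ 2 * C * (√(B χ f f) * √(B χ g g)) := by
  have key : ∀ s : ℝ, |s| ≤ 1 → |C * B χ g f + s * B w g f| ≤
      2 * C * (√(B χ f f) * √(B χ g g)) := fun s hs => by
    have h1 : Cc fun y => C * χ y + s * w y := (hχ.smul C).add (hw.smul s)
    have h2 : ∀ y, |s * w y| ≤ C * χ y := fun y => by
      rw [abs_mul]; nlinarith [h y, abs_nonneg (w y)]
    have h3 : ∀ x ∈ T, √(B (fun y => C * χ y + s * w y) x x) ≤ √(2 * C) * √(B χ x x) :=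
      fun x hx => by
        rw [← Real.sqrt_mul (by positivity), ← H.wsmul _ hχ _ x hx x hx]
        exact Real.sqrt_le_sqrt (H.mono h1 (hχ.smul _)
          (fun y => by linarith [(abs_le.1 (h2 y)).2]) hx)
    have h4 := (H.pf h1 fun y => by linarith [(abs_le.1 (h2 y)).1]).cs hf hg
    rw [H.wadd _ _ (hχ.smul C) (hw.smul s) g hg f hf, H.wsmul _ hχ _ g hg f hf,
      H.wsmul _ hw _ g hg f hf] at h4
    refine h4.trans ((mul_le_mul (h3 f hf) (h3 g hg) (Real.sqrt_nonneg _) (by positivity)).trans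
      (le_of_eq ?_))
    rw [mul_mul_mul_comm, Real.mul_self_sqrt (by positivity)]
  have h1 := abs_le.1 (key 1 (by simp))
  have h2 := abs_le.1 (key (-1) (by simp))
  exact abs_le.2 ⟨by linarith, by linarith⟩

theorem QF.abs_diff (H : QF T B) (a : Af T V A) (hw : Cc w) (hχ : Cc χ) (h0 : ∀ y, 0 ≤ χ y) {C : ℝ}
    (hC : 0 ≤ C) (h : ∀ y, |w y| ≤ C * χ y) (hf : f ∈ A) (hg : g ∈ A) :
    |B w f f - B w g g| ≤ 2 * C * (√(4 * mn (B χ) A + 2 * (ex (B χ) A f + ex (B χ) A g)) *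
      √(2 * (ex (B χ) A f + ex (B χ) A g))) := by
  have h1 := a.sub f hf
  have h2 := a.sub g hg
  have P := H.pf hχ h0
  rw [(H.bf w hw).diff h1 h2]
  refine (H.abs_bd hw hχ hC h (T.add_mem h1 h2) (T.sub_mem h1 h2)).trans ?_
  have h3 := P.pos _ (T.sub_mem h1 h2)
  have h4 := par P a hf hg
  have h5 : B χ (f + g) (f + g) ≤ 4 * mn (B χ) A + 2 * (ex (B χ) A f + ex (B χ) A g) := by
    rw [P.sq_sub h1 h2] at h3
    rw [P.sq_add' h1 h2]
    unfold ex
    linarith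
  gcongr
  linarith

/-- the excess is monotone in the cut-off -/
theorem QF.ex_mono (H : QF T B) (a : Af T V A) (hL : Loc T V B) (hχ : Cu χ) (hχ' : Cc χ')
    (h0 : ∀ y, 0 ≤ χ' y) (h1 : ∀ y, χ' y * χ y = χ y) (hf : f ∈ A) :
    ex (B χ) A f ≤ ex (B χ') A f := by
  have h2 : ∀ g ∈ A, B χ f f - ex (B χ') A f ≤ B χ g g := fun g hg => by
    have hu := a.diff g hg f hf
    obtain ⟨u', hu', h3⟩ := hL χ hχ _ hu
    have hfT := a.sub f hf
    have h4 := mn_le (H.pf hχ' h0) a (a.add f hf _ hu')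
    have e : (fun y => χ' y * χ y) = χ := funext h1
    rw [(H.bf _ hχ').sq_add' hfT (a.le hu'), h3 _ hχ' _ hfT, h3 _ hχ' _ (a.le hu'), e,
      (H.bf _ hχ.cc).symm _ (a.le hu) _ (a.le hu'), h3 _ hχ.cc _ (a.le hu)] at h4
    have h5 := H.mono (hχ.cc.mul hχ.cc.1) hχ.cc
      (fun y => by nlinarith [hχ.nn y, hχ.le y]) (a.le hu)
    have h6 := (H.bf _ hχ.cc).sq_add' hfT (a.le hu)
    rw [add_sub_cancel] at h6
    unfold ex
    linarith
  have h3 : B χ f f - ex (B χ') A f ≤ mn (B χ) A :=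
    le_csInf (a.ne.image _) (by rintro _ ⟨g, hg, rfl⟩; exact h2 g hg)
  unfold ex at h3 ⊢
  linarith

/-- the standard cut-off functions -/
def cutB (k : ℕ) : ContDiffBump (0 : Y) := ⟨k + 1, k + 2, by positivity, by linarith⟩

/-- the standard cut-off functions -/
def cut (k : ℕ) (y : Y) : ℝ := cutB (Y := Y) k y

theorem cu_cut (k : ℕ) : Cu (cut k : Y → ℝ) :=
  ⟨(cutB k).contDiff, (cutB k).hasCompactSupport, fun _ => (cutB k).nonneg,
    fun _ => (cutB k).le_one⟩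

theorem ev_cut {K : Set Y} (hK : IsCompact K) : ∀ᶠ k : ℕ in atTop, ∀ y ∈ K, (cut k : Y → ℝ) y = 1 := by
  obtain ⟨R, hR⟩ := hK.isBounded.subset_closedBall 0
  filter_upwards [tendsto_natCast_atTop_atTop.eventually (eventually_ge_atTop R)] with k hk y hy
  exact (cutB k).one_of_mem_closedBall
    (Metric.closedBall_subset_closedBall (hk.trans (by simp [cutB])) (hR hy))

theorem Cc.exists_le (hw : Cc w) : ∃ χ, Cu χ ∧ ∃ C : ℝ, 0 ≤ C ∧ (∀ y ∈ tsupport w, χ y = 1) ∧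
    ∀ y, |w y| ≤ C * χ y := by
  obtain ⟨k, hk⟩ := (ev_cut hw.2).exists
  obtain ⟨C, hC⟩ := hw.1.bounded_above_of_compact_support hw.2
  refine ⟨_, cu_cut k, |C|, abs_nonneg _, hk, fun y => ?_⟩
  by_cases hy : y ∈ tsupport w
  · rw [hk y hy, mul_one]; exact (hC y).trans (le_abs_self C)
  · rw [image_eq_zero_of_notMem_tsupport hy, abs_zero]
    exact mul_nonneg (abs_nonneg _) ((cu_cut k).nn y)

theorem tend_err (C m : ℝ) :
    Tendsto (fun x : ℝ => 2 * C * (√(4 * m + 2 * x) * √(2 * x))) (𝓝 0) (𝓝 0) := by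
  have h : Continuous fun x : ℝ => 2 * C * (√(4 * m + 2 * x) * √(2 * x)) := by fun_prop
  simpa using h.tendsto 0

variable [MeasurableSpace Y] [BorelSpace Y]

/-- **global minimising sequence and the limit measure** -/
theorem exists_glob (H : QF T B) (a : Af T V A) (hL : Loc T V B) :
    ∃ (f : ℕ → W) (ν : Measure Y), IsLocallyFiniteMeasure ν ∧ (∀ k, f k ∈ A) ∧
      (∀ χ, Cu χ → Tendsto (fun k => ex (B χ) A (f k)) atTop (𝓝 0)) ∧
      (∀ w, Cc w → Tendsto (fun k => B w (f k) (f k)) atTop (𝓝 (∫ y, w y ∂ν))) ∧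
      ∀ χ, Cu χ → ∀ w, Cc w → ∀ C : ℝ, 0 ≤ C → (∀ y, |w y| ≤ C * χ y) → ∀ η : ℝ, 0 < η →
        ∃ δ, 0 < δ ∧ ∀ F ∈ A, ex (B χ) A F ≤ δ → |B w F F - ∫ y, w y ∂ν| ≤ η := by
  choose f h1 h2 using fun k : ℕ =>
    exists_ex (B (cut k : Y → ℝ)) a (Nat.one_div_pos_of_nat (n := k))
  have h3 : ∀ χ, Cu χ → Tendsto (fun k => ex (B χ) A (f k)) atTop (𝓝 0) := fun χ hχ => by
    refine squeeze_zero' (Eventually.of_forall fun k => ex_nonneg (H.pf hχ.cc hχ.nn) a (h1 k)) ?_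
      tendsto_one_div_add_atTop_nhds_zero_nat
    filter_upwards [ev_cut hχ.cpt] with k hk
    refine (H.ex_mono a hL hχ (cu_cut k).cc (cu_cut k).nn (fun y => ?_) (h1 k)).trans (h2 k)
    by_cases hy : y ∈ tsupport χ
    · rw [hk y hy, one_mul]
    · rw [image_eq_zero_of_notMem_tsupport hy, mul_zero]
  have h4 : ∀ w : C_c(Y, ℝ), ∃ x, Tendsto (fun k => B w (f k) (f k)) atTop (𝓝 x) := fun w => by
    have hw : Cc (w : Y → ℝ) := ⟨w.continuous, w.hasCompactSupport⟩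
    obtain ⟨χ, hχ, C, hC, -, h5⟩ := hw.exists_le
    refine cauchySeq_tendsto_of_complete (cauchySeq_iff_tendsto_dist_atTop_0.2 ?_)
    have h6 : Tendsto (fun p : ℕ × ℕ => ex (B χ) A (f p.1) + ex (B χ) A (f p.2)) atTop (𝓝 0) := by
      rw [← prod_atTop_atTop_eq]
      simpa using ((h3 χ hχ).comp tendsto_fst).add ((h3 χ hχ).comp tendsto_snd)
    exact squeeze_zero (fun _ => dist_nonneg)
      (fun p => H.abs_diff a hw hχ.cc hχ.nn hC h5 (h1 p.1) (h1 p.2))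
      ((tend_err C (mn (B χ) A)).comp h6)
  choose Λ hΛ using h4
  have hc : ∀ w : C_c(Y, ℝ), Cc (w : Y → ℝ) := fun w => ⟨w.continuous, w.hasCompactSupport⟩
  let L : C_c(Y, ℝ) →ₚ[ℝ] ℝ :=
    { toFun := Λ
      map_add' := fun w w' => tendsto_nhds_unique (hΛ _) (((hΛ w).add (hΛ w')).congr fun k =>
        (H.wadd _ _ (hc w) (hc w') _ (a.sub _ (h1 k)) _ (a.sub _ (h1 k))).symm)
      map_smul' := fun c w => tendsto_nhds_unique (hΛ _) (((hΛ w).const_mul c).congr fun k =>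
        (H.wsmul _ (hc w) c _ (a.sub _ (h1 k)) _ (a.sub _ (h1 k))).symm)
      monotone' := fun w w' h => le_of_tendsto_of_tendsto' (hΛ w) (hΛ w') fun k =>
        H.mono (hc w) (hc w') h (a.sub _ (h1 k)) }
  have h5 : ∀ w, Cc w → Tendsto (fun k => B w (f k) (f k)) atTop
      (𝓝 (∫ y, w y ∂(RealRMK.rieszMeasure L))) := fun w hw => by
    have h6 := RealRMK.integral_rieszMeasure L ⟨⟨w, hw.1⟩, hw.2⟩
    exact h6 ▸ hΛ ⟨⟨w, hw.1⟩, hw.2⟩
  refine ⟨f, RealRMK.rieszMeasure L, inferInstance, h1, h3, h5, fun χ hχ w hw C hC h6 η hη => ?_⟩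
  obtain ⟨δ, hδ, h7⟩ := Metric.tendsto_nhds_nhds.1 (tend_err C (mn (B χ) A)) η hη
  refine ⟨δ / 3, by positivity, fun F hF h8 => ?_⟩
  refine le_of_tendsto ((h5 w hw).const_sub (B w F F)).abs ?_
  filter_upwards [(h3 χ hχ).eventually (gt_mem_nhds (by positivity : 0 < δ / 3))] with k hk
  have P := H.pf hχ.cc hχ.nn
  have h9 := h7 (x := ex (B χ) A F + ex (B χ) A (f k)) (by
    rw [Real.dist_eq, sub_zero, abs_of_nonneg (add_nonneg (ex_nonneg P a hF) (ex_nonneg P a (h1 k)))]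
    linarith)
  rw [Real.dist_eq, sub_zero] at h9
  exact (H.abs_diff a hw hχ.cc hχ.nn hC h6 hF (h1 k)).trans ((le_abs_self _).trans h9.le)

end weight

end Crest.Agent.X261.Fam79
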