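import Crest.Agent.X261.Psh.Cvx
import Crest.Agent.R273.Defs_333

/-!
# Row 261, package FAM (helper79), file `Liou`: a Liouville theorem for measures

* `psh_const`  : a continuous psh function on the whole space which is bounded above is constant;
* `const_of_lev` : `u ≥ 0` of class `C²` with `2 |∂_v u|² ≤ u ∂∂̄u (v, v)` is constant;
* `ext_tests`  : smooth non-negative test functions determine a Radon measure;
* `liou`       : a Radon measure `E` on `ℂ^q` with `2 |∂_v E|² ≤ E · ∂∂̄E (v, v)` on test functions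
  is a multiple of the Lebesgue measure.
-/

set_option autoImplicit false
set_option linter.unusedSectionVars false

open Set Filter Topology Metric MeasureTheory Complex
open scoped ContDiff NNReal

noncomputable section

namespace Crest.Agent.X261.Fam79

open Crest.Agent.X261.Psh
open Crest.Agent.R257.HoB_843 (lvE)
open Crest.Agent.R281.Rich_710 (dav lvE_nonneg_of_le)

section psh

variable {E : Type*} [NormedAddCommGroup E] [NormedSpace ℂ E] {f : E → ℝ}

/-- **Liouville** for psh functions -/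
theorem psh_le (h : IsPsh univ fun x => (f x : EReal)) (hc : Continuous f) {b : ℝ}
    (hb : ∀ x, f x ≤ b) (x y : E) : f x ≤ f y := by
  rcases eq_or_ne x y with rfl | hxy
  · exact le_rfl
  have hρ : 0 < ‖x - y‖ := norm_pos_iff.2 (sub_ne_zero.2 hxy)
  refine le_of_forall_pos_le_add fun ε hε => ?_
  have h1 : ∀ᶠ z in 𝓝 y, f z < f y + ε / 2 :=
    hc.continuousAt.eventually (gt_mem_nhds (by linarith))
  obtain ⟨δ, hδ, h2⟩ := Metric.eventually_nhds_iff.1 h1
  set r := min (δ / 2) ‖x - y‖ with hr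
  have hr0 : 0 < r := lt_min (by linarith) hρ
  have hr1 : r ≤ ‖x - y‖ := min_le_right _ _
  have hr2 : r < δ := (min_le_left _ _).trans_lt (by linarith)
  set L := Real.log ‖x - y‖ - Real.log r with hL
  have hL0 : 0 ≤ L := sub_nonneg.2 (Real.log_le_log hr0 hr1)
  set s := ε / 2 / (L + 1) with hs
  have hs0 : 0 < s := by positivity
  have t : Tendsto (fun R : ℝ => s * Real.log R) atTop atTop :=
    Real.tendsto_log_atTop.const_mul_atTop hs0
  obtain ⟨R, hR1, hR2⟩ := ((t.eventually (eventually_ge_atTop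
    (b - (f y + ε / 2 - s * Real.log r)))).and (eventually_ge_atTop ‖x - y‖)).exists
  have h3 := h.annulus y hr0 (R := R) (fun _ _ _ => mem_univ _) (s := s)
    (m := f y + ε / 2 - s * Real.log r)
    (fun z hz => EReal.coe_le_coe_iff.2 (by
      have := h2 (y := z) (by rw [dist_eq_norm, hz]; exact hr2)
      linarith))
    (fun z _ => EReal.coe_le_coe_iff.2 (by linarith [hb z])) hr1 hR2
  have h4 := EReal.coe_le_coe_iff.1 h3
  have h5 : s * L ≤ ε / 2 := by
    rw [hs, div_mul_eq_mul_div, div_le_iff₀ (by positivity)]; nlinarith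
  have h6 : s * L = s * Real.log ‖x - y‖ - s * Real.log r := by rw [hL]; ring
  linarith

theorem psh_const (h : IsPsh univ fun x => (f x : EReal)) (hc : Continuous f) {b : ℝ}
    (hb : ∀ x, f x ≤ b) (x y : E) : f x = f y :=
  le_antisymm (psh_le h hc hb x y) (psh_le h hc hb y x)

variable [NormedSpace ℝ E] [IsScalarTower ℝ ℂ E] {u : E → ℝ}

/-- second derivative of `-(u + δ)⁻¹` -/
theorem d2_inv (hu : ContDiff ℝ 2 u) (h0 : ∀ x, u x ≠ 0) (x v : E) :
    fderiv ℝ (fderiv ℝ fun y => -(u y)⁻¹) x v v =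
      (u x * fderiv ℝ (fderiv ℝ u) x v v - 2 * fderiv ℝ u x v ^ 2) / u x ^ 3 := by
  have hd : Differentiable ℝ u := hu.differentiable (by simp)
  have hd' : Differentiable ℝ (fderiv ℝ u) :=
    (hu.fderiv_right (m := 1) (by norm_num)).differentiable (by simp)
  have h1 : fderiv ℝ (fun y => -(u y)⁻¹) = fun y => (u y ^ 2)⁻¹ • fderiv ℝ u y := by
    funext y
    have := ((hasDerivAt_inv (h0 y)).comp_hasFDerivAt y (hd y).hasFDerivAt).neg
    rw [show (fun y => -(u y)⁻¹) = -((fun z : ℝ => z⁻¹) ∘ u) from rfl, this.fderiv]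
    simp
  have h2 : HasFDerivAt (fun y => (u y ^ 2)⁻¹) ((-(2 / u x ^ 3)) • fderiv ℝ u x) x := by
    have h3 : HasDerivAt (fun z : ℝ => (z ^ 2)⁻¹) (-(2 / u x ^ 3)) (u x) := by
      refine ((hasDerivAt_pow 2 (u x)).inv (pow_ne_zero 2 (h0 x))).congr_deriv ?_
      have := h0 x
      simp only [Nat.cast_ofNat, Nat.add_one_sub_one, pow_one]
      field_simp
    exact h3.comp_hasFDerivAt x (hd x).hasFDerivAt
  rw [h1, (h2.fun_smul (hd' x).hasFDerivAt).fderiv]
  have := h0 x
  simp only [add_apply, smul_apply,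
    ContinuousLinearMap.smulRight_apply, smul_eq_mul]
  field_simp
  ring

/-- `u ≥ 0` with `2 |∂_v u|² ≤ u ∂∂̄u (v, v)` is constant -/
theorem const_of_lev (hu : ContDiff ℝ 2 u) (h0 : ∀ x, 0 ≤ u x)
    (h : ∀ x v, 2 * (fderiv ℝ u x v ^ 2 + fderiv ℝ u x (I • v) ^ 2) ≤ u x * (4 * lvE u x v))
    (x y : E) : u x = u y := by
  have hl : ∀ x v, 0 ≤ lvE u x v := fun x v => by
    rcases (h0 x).eq_or_lt with h1 | h1
    · refine lvE_nonneg_of_le hu.contDiffAt ⟨1, one_pos, fun s _ _ => ?_⟩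
      rw [← h1]
      exact Real.circleAverage_nonneg_of_nonneg fun _ _ => h0 _
    · have h2 : 0 ≤ u x * (4 * lvE u x v) := le_trans (by positivity) (h x v)
      have := nonneg_of_mul_nonneg_right h2
      by_contra h3
      nlinarith [mul_pos h1 (neg_pos.2 (not_le.1 h3))]
  have hp : ∀ x, 0 < u x + 1 := fun x => by linarith [h0 x]
  have hu1 : ContDiff ℝ 2 fun x => u x + 1 := hu.add contDiff_const
  have hg : ContDiff ℝ 2 fun x => -(u x + 1)⁻¹ := (hu1.inv fun x => (hp x).ne').neg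
  have e1 : fderiv ℝ (fun x => u x + 1) = fderiv ℝ u := funext fun x => fderiv_add_const 1
  have hs : IsPsh univ fun x => ((-(u x + 1)⁻¹ : ℝ) : EReal) :=
    isPsh_of_lvE fun x _ => ⟨hg.contDiffAt, fun v => by
      unfold lvE
      rw [d2_inv hu1 (fun x => (hp x).ne'), d2_inv hu1 (fun x => (hp x).ne'), e1, ← add_div]
      refine mul_nonneg (by norm_num) (div_nonneg ?_ (pow_pos (hp x) 3).le)
      have h1 := h x v
      have h2 := hl x v
      unfold lvE at h1 h2
      nlinarith⟩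
  have h3 := psh_const hs hg.continuous (b := 0)
    (fun x => neg_nonpos.2 (inv_pos.2 (hp x)).le) x y
  simpa using h3

end psh

section moll

variable {E F : Type*} [NormedAddCommGroup E] [NormedSpace ℝ E] [FiniteDimensional ℝ E]
  [MeasurableSpace E] [BorelSpace E] [NormedAddCommGroup F] [NormedSpace ℝ F] [CompleteSpace F]
  {μ ν : Measure E} [IsFiniteMeasureOnCompacts μ] [IsFiniteMeasureOnCompacts ν] {g : E → F}

/-- mollification of a measure -/
def U (μ : Measure E) (g : E → F) (x : E) : F := ∫ t, g (x - t) ∂μ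

theorem hcs_sub (hc : HasCompactSupport g) (x : E) : HasCompactSupport fun t => g (x - t) :=
  hc.comp_homeomorph (Homeomorph.subLeft x)

theorem int_sub (hg : Continuous g) (hc : HasCompactSupport g) (x : E) :
    Integrable (fun t => g (x - t)) μ :=
  (hg.comp (by fun_prop)).integrable_of_hasCompactSupport (hcs_sub hc x)

theorem contDiff_U {n : ℕ∞} (hg : ContDiff ℝ n g) (hc : HasCompactSupport g) :
    ContDiff ℝ n (U μ g) := by
  have h := hc.contDiff_convolution_right (μ := μ) (f := fun _ : E => (1 : ℝ))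
    (ContinuousLinearMap.lsmul ℝ ℝ) (locallyIntegrable_const 1) hg
  convert h using 1
  funext x
  simp [U, convolution_def]

theorem hasFDerivAt_U (hg : ContDiff ℝ 1 g) (hc : HasCompactSupport g) (x₀ : E) :
    HasFDerivAt (U μ g) (U μ (fderiv ℝ g) x₀) x₀ := by
  have hd : Continuous (fderiv ℝ g) := hg.continuous_fderiv one_ne_zero
  have hcd := hc.fderiv ℝ
  obtain ⟨C, hC⟩ := hd.bounded_above_of_compact_support hcd
  set K : Set E := (fun q : E × E => q.1 - q.2) '' closedBall x₀ 1 ×ˢ tsupport (fderiv ℝ g)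
  have hK : IsCompact K := ((isCompact_closedBall x₀ 1).prod hcd).image (by fun_prop)
  refine hasFDerivAt_integral_of_dominated_of_fderiv_le (F' := fun x t => fderiv ℝ g (x - t))
    (bound := K.indicator fun _ => C) (ball_mem_nhds x₀ one_pos)
    (Eventually.of_forall fun x => (int_sub hg.continuous hc x).aestronglyMeasurable)
    (int_sub hg.continuous hc x₀) (int_sub hd hcd x₀).aestronglyMeasurable
    (Eventually.of_forall fun t x hx => ?_)
    ((integrable_indicator_iff hK.measurableSet).2 (integrableOn_const hK.measure_lt_top.ne))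
    (Eventually.of_forall fun t x _ => ?_)
  · by_cases ht : t ∈ K
    · rw [indicator_of_mem ht]; exact hC _
    · rw [indicator_of_notMem ht, image_eq_zero_of_notMem_tsupport fun h =>
        ht ⟨(x, x - t), ⟨ball_subset_closedBall hx, h⟩, by simp⟩, norm_zero]
  · exact (((hg.differentiable one_ne_zero) (x - t)).hasFDerivAt.comp x
      ((hasFDerivAt_id x).sub_const t)).congr_fderiv (by ext; simp)

theorem fderiv_U (hg : ContDiff ℝ 1 g) (hc : HasCompactSupport g) :
    fderiv ℝ (U μ g) = U μ (fderiv ℝ g) := funext fun x => (hasFDerivAt_U hg hc x).fderiv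

theorem fderiv_U_apply (hg : ContDiff ℝ 1 g) (hc : HasCompactSupport g) (x v : E) :
    fderiv ℝ (U μ g) x v = ∫ t, fderiv ℝ g (x - t) v ∂μ := by
  rw [fderiv_U hg hc, U, ContinuousLinearMap.integral_apply
    (int_sub (hg.continuous_fderiv one_ne_zero) (hc.fderiv ℝ) x)]

theorem fderiv2_U_apply (hg : ContDiff ℝ 2 g) (hc : HasCompactSupport g) (x v w : E) :
    fderiv ℝ (fderiv ℝ (U μ g)) x v w = ∫ t, fderiv ℝ (fderiv ℝ g) (x - t) v w ∂μ := by
  have h1 : ContDiff ℝ 1 (fderiv ℝ g) := hg.fderiv_right (m := 1) (by norm_num)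
  rw [fderiv_U (hg.of_le (by norm_num)) hc, fderiv_U_apply h1 (hc.fderiv ℝ),
    ContinuousLinearMap.integral_apply]
  exact int_sub (g := fun z => fderiv ℝ (fderiv ℝ g) z v)
    ((h1.continuous_fderiv one_ne_zero).clm_apply continuous_const)
    ((hc.fderiv ℝ).fderiv_apply ℝ v) x

theorem fderiv_refl (hg : Differentiable ℝ g) (x : E) :
    fderiv ℝ (fun t => g (x - t)) = fun t => -fderiv ℝ g (x - t) := by
  funext t
  have := (hg (x - t)).hasFDerivAt.comp t ((hasFDerivAt_id t).const_sub x)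
  exact (this.congr_fderiv (by ext; simp)).fderiv

theorem fderiv2_refl (hg : ContDiff ℝ 2 g) (x : E) :
    fderiv ℝ (fderiv ℝ fun t => g (x - t)) = fun t => fderiv ℝ (fderiv ℝ g) (x - t) := by
  have h1 : Differentiable ℝ (fderiv ℝ g) :=
    (hg.fderiv_right (m := 1) (by norm_num)).differentiable one_ne_zero
  rw [fderiv_refl (hg.differentiable (by simp))]
  funext t
  rw [fderiv_fun_neg, fderiv_refl h1, neg_neg]

/-- smooth non-negative test functions determine a Radon measure -/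
theorem ext_tests (h : ∀ ψ : E → ℝ, ContDiff ℝ ∞ ψ → HasCompactSupport ψ → (∀ z, 0 ≤ ψ z) →
    ∫ z, ψ z ∂μ = ∫ z, ψ z ∂ν) : μ = ν := by
  refine Measure.OuterRegular.ext_isOpen_isBounded fun V hV hb => ?_
  obtain ⟨f, hs, hf, hr⟩ := hV.exists_contDiff_support_eq (n := ⊤)
  have h01 : ∀ z, f z ∈ Icc (0 : ℝ) 1 := fun z => hr ⟨z, rfl⟩
  have hK : IsCompact (closure V) := hb.isCompact_closure
  have hz : ∀ z, z ∉ V → f z = 0 := fun z hz => by
    rwa [← hs, Function.mem_support, not_not] at hz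
  have b0 : ∀ (k : ℕ) z, 0 ≤ 1 - (1 - f z) ^ k := fun k z =>
    sub_nonneg.2 (pow_le_one₀ (sub_nonneg.2 (h01 z).2) (by linarith [(h01 z).1]))
  have key : ∀ (m : Measure E) [IsFiniteMeasureOnCompacts m],
      Tendsto (fun k : ℕ => ∫ z, (1 - (1 - f z) ^ k) ∂m) atTop (𝓝 (m.real V)) := by
    intro m _
    have hm : m V ≠ ⊤ := ((measure_mono subset_closure).trans_lt hK.measure_lt_top).ne
    rw [← integral_indicator_one hV.measurableSet]
    refine tendsto_integral_of_dominated_convergence (V.indicator 1)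
      (fun k => Continuous.aestronglyMeasurable (by have := hf.continuous; fun_prop))
      ((integrable_indicator_iff hV.measurableSet).2 (integrableOn_const hm))
      (fun k => Eventually.of_forall fun z => ?_) (Eventually.of_forall fun z => ?_)
    · by_cases hzV : z ∈ V
      · rw [indicator_of_mem hzV, Real.norm_of_nonneg (b0 k z), Pi.one_apply]
        linarith [pow_nonneg (sub_nonneg.2 (h01 z).2) k]
      · simp [hz z hzV, hzV]
    · by_cases hzV : z ∈ V
      · have h1 : 0 < f z := (h01 z).1.lt_of_ne' (by rwa [← hs] at hzV)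
        have := (tendsto_pow_atTop_nhds_zero_of_lt_one (sub_nonneg.2 (h01 z).2)
          (by linarith : 1 - f z < 1)).const_sub 1
        simpa [hzV] using this
      · simp [hz z hzV, hzV]
  have h1 : μ.real V = ν.real V := by
    refine tendsto_nhds_unique (key μ) ((key ν).congr fun k => (h _ ?_ ?_ (b0 k)).symm)
    · exact contDiff_const.sub ((contDiff_const.sub hf).pow k)
    · exact HasCompactSupport.intro hK fun z hzV => by simp [hz z fun h => hzV (subset_closure h)]
  exact (ENNReal.toReal_eq_toReal_iff' ((measure_mono subset_closure).trans_lt hK.measure_lt_top).ne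
    ((measure_mono subset_closure).trans_lt hK.measure_lt_top).ne).1 h1

/-- if all mollifications are constant the measure is invariant -/
theorem inv_of_U (h : ∀ ψ : E → ℝ, ContDiff ℝ ∞ ψ → HasCompactSupport ψ → (∀ z, 0 ≤ ψ z) →
    ∀ x y, U μ ψ x = U μ ψ y) : μ.IsAddLeftInvariant := by
  refine ⟨fun a => ?_⟩
  have : IsFiniteMeasureOnCompacts (μ.map (a + ·)) :=
    Measure.IsFiniteMeasureOnCompacts.map μ (Homeomorph.addLeft a)
  refine ext_tests fun ψ h1 h2 h3 => ?_
  rw [integral_map (by fun_prop) h1.continuous.aestronglyMeasurable]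
  have h4 := h (fun z => ψ (0 - z)) (h1.comp (contDiff_const.sub contDiff_id)) (hcs_sub h2 0)
    (fun _ => h3 _) (-a) 0
  simpa [U, add_comm] using h4

/-- an invariant measure kills derivatives -/
theorem int_fderiv [μ.IsAddLeftInvariant] (hg : ContDiff ℝ 1 g) (hc : HasCompactSupport g) (v : E) :
    ∫ z, fderiv ℝ g z v ∂μ = 0 := by
  have h1 : U μ (fun z => g (0 - z)) = fun _ => ∫ t, g t ∂μ := funext fun x => by
    rw [U, ← integral_add_left_eq_self _ x]
    simp
  have h2 := fderiv_U_apply (μ := μ) (hg.comp (contDiff_const.sub contDiff_id)) (hcs_sub hc 0) 0 v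
  rw [show (g ∘ fun x => 0 - id x) = fun z => g (0 - z) from rfl, h1,
    fderiv_refl (hg.differentiable one_ne_zero)] at h2
  simpa [integral_neg] using h2

theorem int_fderiv2 [μ.IsAddLeftInvariant] (hg : ContDiff ℝ 2 g) (hc : HasCompactSupport g)
    (v w : E) : ∫ z, fderiv ℝ (fderiv ℝ g) z v w ∂μ = 0 := by
  have h1 : ContDiff ℝ 1 (fderiv ℝ g) := hg.fderiv_right (m := 1) (by norm_num)
  rw [← ContinuousLinearMap.integral_apply
    (((h1.continuous_fderiv one_ne_zero).clm_apply continuous_const).integrable_of_hasCompactSupport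
      ((hc.fderiv ℝ).fderiv_apply ℝ v)), int_fderiv h1 (hc.fderiv ℝ)]
  rfl

end moll

section main

variable {E : Type*} [NormedAddCommGroup E] [NormedSpace ℂ E] [NormedSpace ℝ E]
  [IsScalarTower ℝ ℂ E] [FiniteDimensional ℝ E] [MeasurableSpace E] [BorelSpace E]

theorem inv_of_lev (μ : Measure E) [IsFiniteMeasureOnCompacts μ]
    (h : ∀ ψ : E → ℝ, ContDiff ℝ ∞ ψ → HasCompactSupport ψ → (∀ z, 0 ≤ ψ z) → ∀ v : E,
      2 * ((∫ z, fderiv ℝ ψ z v ∂μ) ^ 2 + (∫ z, fderiv ℝ ψ z (I • v) ∂μ) ^ 2) ≤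
        (∫ z, ψ z ∂μ) * ∫ z, 4 * lvE ψ z v ∂μ) : μ.IsAddLeftInvariant := by
  refine inv_of_U fun ψ h1 h2 h3 => ?_
  have h4 : ContDiff ℝ 2 ψ := contDiff_infty.1 h1 2
  have h5 : ContDiff ℝ 1 ψ := h4.of_le (by norm_num)
  refine const_of_lev (contDiff_U (n := 2) h4 h2) (fun x => integral_nonneg fun t => h3 _)
    fun x v => ?_
  have h6 := h (fun t => ψ (x - t)) (h1.comp (contDiff_const.sub contDiff_id)) (hcs_sub h2 x)
    (fun _ => h3 _) v
  have hi : ∀ w : E, Integrable (fun t => fderiv ℝ (fderiv ℝ ψ) (x - t) w w) μ := fun w =>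
    int_sub (g := fun z => fderiv ℝ (fderiv ℝ ψ) z w w)
      ((((h4.fderiv_right (m := 1) (by norm_num)).continuous_fderiv one_ne_zero).clm_apply
        continuous_const).clm_apply continuous_const)
      (((h2.fderiv ℝ).fderiv ℝ).comp_left (g := fun L : E →L[ℝ] E →L[ℝ] ℝ => L w w) (by simp)) x
  simp only [lvE, fderiv2_refl h4] at h6
  simp only [fderiv_refl (h5.differentiable one_ne_zero), neg_apply, integral_neg, neg_sq] at h6
  simp only [lvE, fderiv_U_apply h5 h2, fderiv2_U_apply h4 h2]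
  rw [← integral_add (hi v) (hi (I • v)), ← integral_const_mul, ← integral_const_mul]
  exact h6

end main

open Crest.Agent.R275.Geo Crest.Agent.R273.Defs_333

variable {q : ℕ}

theorem lev_eq_lvE (ψ : Cn q → ℝ) (z v : Cn q) : lev ψ z v = 4 * lvE ψ z v := by
  simp only [lev, lvE, iteratedFDeriv_two_apply]
  simp

/-- **Liouville for measures** -/
theorem liou (μ : Measure (Cn q)) [IsFiniteMeasureOnCompacts μ]
    (h : ∀ ψ : Cn q → ℝ, ContDiff ℝ ∞ ψ → HasCompactSupport ψ → (∀ z, 0 ≤ ψ z) → ∀ v : Cn q,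
      2 * ((∫ z, fderiv ℝ ψ z v ∂μ) ^ 2 + (∫ z, fderiv ℝ ψ z (I • v) ∂μ) ^ 2) ≤
        (∫ z, ψ z ∂μ) * ∫ z, lev ψ z v ∂μ) : ∃ c : ℝ≥0, μ = c • (volume : Measure (Cn q)) := by
  have := inv_of_lev μ (by simpa only [lev_eq_lvE] using h)
  exact ⟨_, Measure.isAddLeftInvariant_eq_smul μ volume⟩

/-- an invariant measure kills the Levi form -/
theorem int_lev (μ : Measure (Cn q)) [IsFiniteMeasureOnCompacts μ] [μ.IsAddLeftInvariant]
    {ψ : Cn q → ℝ} (hg : ContDiff ℝ 2 ψ) (hc : HasCompactSupport ψ) (v : Cn q) :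
    ∫ z, lev ψ z v ∂μ = 0 := by
  have hi : ∀ w : Cn q, Integrable (fun t => fderiv ℝ (fderiv ℝ ψ) t w w) μ := fun w =>
    ((((hg.fderiv_right (m := 1) (by norm_num)).continuous_fderiv one_ne_zero).clm_apply
      continuous_const).clm_apply continuous_const).integrable_of_hasCompactSupport
      (((hc.fderiv ℝ).fderiv ℝ).comp_left (g := fun L : Cn q →L[ℝ] Cn q →L[ℝ] ℝ => L w w) (by simp))
  simp only [lev, iteratedFDeriv_two_apply, Matrix.cons_val_zero, Matrix.cons_val_one]
  rw [integral_add (hi v) (hi (I • v)), int_fderiv2 hg hc, int_fderiv2 hg hc, add_zero]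

/-- `liou`, invariance form -/
theorem liou_inv (μ : Measure (Cn q)) [IsFiniteMeasureOnCompacts μ]
    (h : ∀ ψ : Cn q → ℝ, ContDiff ℝ ∞ ψ → HasCompactSupport ψ → (∀ z, 0 ≤ ψ z) → ∀ v : Cn q,
      2 * ((∫ z, fderiv ℝ ψ z v ∂μ) ^ 2 + (∫ z, fderiv ℝ ψ z (I • v) ∂μ) ^ 2) ≤
        (∫ z, ψ z ∂μ) * ∫ z, lev ψ z v ∂μ) : μ.IsAddLeftInvariant :=
  inv_of_lev μ (by simpa only [lev_eq_lvE] using h)

/-- `liou`, integral form -/
theorem liou_int (μ : Measure (Cn q)) [IsFiniteMeasureOnCompacts μ]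
    (h : ∀ ψ : Cn q → ℝ, ContDiff ℝ ∞ ψ → HasCompactSupport ψ → (∀ z, 0 ≤ ψ z) → ∀ v : Cn q,
      2 * ((∫ z, fderiv ℝ ψ z v ∂μ) ^ 2 + (∫ z, fderiv ℝ ψ z (I • v) ∂μ) ^ 2) ≤
        (∫ z, ψ z ∂μ) * ∫ z, lev ψ z v ∂μ) :
    ∃ c : ℝ, 0 ≤ c ∧ ∀ g : Cn q → ℝ, ∫ z, g z ∂μ = c * ∫ z, g z := by
  obtain ⟨c, rfl⟩ := liou μ h
  exact ⟨c, c.2, fun g => by rw [integral_smul_nnreal_measure]; rfl⟩

end Crest.Agent.X261.Fam79
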